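import Mathlib

set_option autoImplicit false
set_option linter.all false

/-!
# P365 T2, law error of the one-body entropy, real-variable claim (L2) (note 20434, LE-B)

`G(u) = u log (u + ε)`, `λ(u) = G'(u) = log (u + ε) + u / (u + ε)`.
-/

namespace P365T2.H568.LB

/-- `λ = G'` -/
noncomputable def lamG (ε u : ℝ) : ℝ := Real.log (u + ε) + u / (u + ε)

/-- `|log ((u+ε)/(u0+ε))| ≤ |log (u/u0)|` and the logistic part: `|λ(u) - λ(u0)| ≤ 2 |log (u/u0)|` -/
theorem lamG_log_le {ε u u0 : ℝ} (hε : 0 ≤ ε) (hu : 0 < u) (hu0 : 0 < u0) (h : u0 ≤ u) :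
    |lamG ε u - lamG ε u0| ≤ 2 * Real.log (u / u0) := by
  have h1 : 0 < u + ε := by linarith
  have h2 : 0 < u0 + ε := by linarith
  have e1 : Real.log (u + ε) - Real.log (u0 + ε) = Real.log ((u + ε) / (u0 + ε)) :=
    (Real.log_div h1.ne' h2.ne').symm
  have e2 : (u + ε) / (u0 + ε) ≤ u / u0 := by
    rw [div_le_div_iff₀ h2 hu0]
    nlinarith
  have e3 : 1 ≤ (u + ε) / (u0 + ε) := by
    rw [one_le_div h2]
    linarith
  have e4 : 0 ≤ Real.log ((u + ε) / (u0 + ε)) := Real.log_nonneg e3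
  have e5 : Real.log ((u + ε) / (u0 + ε)) ≤ Real.log (u / u0) :=
    Real.log_le_log (by positivity) e2
  have e6 : u0 / (u0 + ε) ≤ u / (u + ε) := by
    rw [div_le_div_iff₀ h2 h1]
    nlinarith
  -- logistic part
  have e7 : u / (u + ε) - u0 / (u0 + ε) ≤ 1 - u0 / u := by
    have h3 : u / (u + ε) - u0 / (u0 + ε) = ε * (u - u0) / ((u + ε) * (u0 + ε)) := by
      field_simp
      ring
    have h4 : 1 - u0 / u = (u - u0) / u := by
      field_simp
    rw [h3, h4, div_le_div_iff₀ (by positivity) hu]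
    have h5 : ε * u ≤ (u + ε) * (u0 + ε) := by nlinarith
    have h6 : 0 ≤ u - u0 := by linarith
    nlinarith [mul_le_mul_of_nonneg_right h5 h6]
  have e8 : 1 - u0 / u ≤ Real.log (u / u0) := by
    have h3 := Real.one_sub_inv_le_log_of_pos (x := u / u0) (by positivity)
    rwa [inv_div] at h3
  have e9 : lamG ε u - lamG ε u0 = Real.log ((u + ε) / (u0 + ε)) +
      (u / (u + ε) - u0 / (u0 + ε)) := by
    unfold lamG
    rw [← e1]
    ring
  rw [e9, abs_of_nonneg (by linarith)]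
  linarith

theorem lamG_log {ε u u0 : ℝ} (hε : 0 ≤ ε) (hu : 0 < u) (hu0 : 0 < u0) :
    |lamG ε u - lamG ε u0| ≤ 2 * |Real.log (u / u0)| := by
  rcases le_total u0 u with h | h
  · have h1 := lamG_log_le hε hu hu0 h
    exact h1.trans (by linarith [le_abs_self (Real.log (u / u0))])
  · have h1 := lamG_log_le hε hu0 hu h
    rw [abs_sub_comm]
    have h2 : Real.log (u0 / u) = -Real.log (u / u0) := by
      rw [← Real.log_inv, inv_div]
    rw [h2] at h1
    exact h1.trans (by linarith [neg_abs_le (Real.log (u / u0))])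

/-- `-T ≤ λ(u) ≤ log (U + 1) + 1` for `0 ≤ u ≤ U`, `ε = e^{-T}`, `T ≥ 0` -/
theorem lamG_bd {T u U : ℝ} (hT : 0 ≤ T) (hu : 0 ≤ u) (hU : u ≤ U) :
    -T ≤ lamG (Real.exp (-T)) u ∧ lamG (Real.exp (-T)) u ≤ Real.log (U + 1) + 1 := by
  have hε := Real.exp_pos (-T)
  have hε1 : Real.exp (-T) ≤ 1 := Real.exp_le_one_iff.2 (by linarith)
  have h1 : 0 < u + Real.exp (-T) := by linarith
  have h2 : 0 ≤ u / (u + Real.exp (-T)) := by positivity
  have h3 : u / (u + Real.exp (-T)) ≤ 1 := by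
    rw [div_le_one h1]
    linarith
  constructor
  · have h4 : Real.log (Real.exp (-T)) ≤ Real.log (u + Real.exp (-T)) :=
      Real.log_le_log hε (by linarith)
    rw [Real.log_exp] at h4
    unfold lamG
    linarith
  · have h4 : Real.log (u + Real.exp (-T)) ≤ Real.log (U + 1) :=
      Real.log_le_log h1 (by linarith)
    unfold lamG
    linarith

theorem lamG_T {T u u0 U : ℝ} (hT : 0 ≤ T) (hu : 0 ≤ u) (hu0 : 0 ≤ u0) (hU : u ≤ U)
    (hU0 : u0 ≤ U) :
    |lamG (Real.exp (-T)) u - lamG (Real.exp (-T)) u0| ≤ T + (Real.log (U + 1) + 1) := by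
  have h1 := lamG_bd hT hu hU
  have h2 := lamG_bd hT hu0 hU0
  have h3 : 0 ≤ Real.log (U + 1) := Real.log_nonneg (by linarith)
  rw [abs_le]
  constructor <;> linarith [h1.1, h1.2, h2.1, h2.2]

/-- `|log (a/a0)| ≤ 2 r / a0` when `|a - a0| ≤ r ≤ a0 / 2` -/
theorem abs_log_le {a a0 r : ℝ} (ha0 : 0 < a0) (h1 : |a - a0| ≤ r) (h2 : r ≤ a0 / 2) :
    0 < a ∧ |Real.log (a / a0)| ≤ 2 * (r / a0) := by
  have h3 := abs_le.1 h1
  have ha : 0 < a := by linarith [h3.1]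
  refine ⟨ha, ?_⟩
  have hr : 0 ≤ r := (abs_nonneg _).trans h1
  rw [abs_le]
  constructor
  · have h4 := Real.one_sub_inv_le_log_of_pos (x := a / a0) (by positivity)
    rw [inv_div] at h4
    have h5 : a0 / a ≤ 1 + 2 * (r / a0) := by
      rw [div_le_iff₀ ha]
      have h6 : (1 + 2 * (r / a0)) * (a0 - r) ≤ (1 + 2 * (r / a0)) * a :=
        mul_le_mul_of_nonneg_left (by linarith [h3.1]) (by positivity)
      have h7 : a0 ≤ (1 + 2 * (r / a0)) * (a0 - r) := by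
        have h8 : (1 + 2 * (r / a0)) * (a0 - r) = a0 + r - 2 * r * (r / a0) := by
          field_simp
          ring
        rw [h8]
        have h9 : r / a0 ≤ 1 / 2 := by
          rw [div_le_iff₀ ha0]
          linarith
        nlinarith
      linarith
    linarith
  · have h4 := Real.log_le_sub_one_of_pos (x := a / a0) (by positivity)
    have h5 : a / a0 - 1 ≤ r / a0 := by
      rw [div_sub_one ha0.ne']
      gcongr
      linarith [h3.2]
    have h6 : 0 ≤ r / a0 := by positivity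
    linarith

/-- **(L2), real-variable form**: `a = √A`, `n = √m`, `u = (a/n)²` (normalised by `ρ`):
if `|a - a0| ≤ s`, `|n - n0| ≤ g` then
`|λ(u) - λ(u0)| a ≤ C_T (s + (a0/n0) g)`, `C_T = 3 (T + C) + 12` -/
theorem L2 {T U a a0 n n0 s g ρ : ℝ} (hT : 0 ≤ T) (hρ : 0 < ρ) (ha : 0 ≤ a) (ha0 : 0 ≤ a0)
    (hn : 0 < n) (hn0 : 0 < n0) (h1 : |a - a0| ≤ s) (h2 : |n - n0| ≤ g)
    (hu : a ^ 2 / (ρ * n ^ 2) ≤ U) (hu0 : a0 ^ 2 / (ρ * n0 ^ 2) ≤ U) :
    |lamG (Real.exp (-T)) (a ^ 2 / (ρ * n ^ 2)) - lamG (Real.exp (-T)) (a0 ^ 2 / (ρ * n0 ^ 2))| * a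
      ≤ (3 * (T + (Real.log (U + 1) + 1)) + 12) * (s + a0 / n0 * g) := by
  have hs : 0 ≤ s := (abs_nonneg _).trans h1
  have hg : 0 ≤ g := (abs_nonneg _).trans h2
  have hU : 0 ≤ U := le_trans (by positivity) hu
  have hC : 0 ≤ Real.log (U + 1) := Real.log_nonneg (by linarith)
  have hlt := lamG_T hT (by positivity : 0 ≤ a ^ 2 / (ρ * n ^ 2))
    (by positivity : 0 ≤ a0 ^ 2 / (ρ * n0 ^ 2)) hu hu0
  set Δ := |lamG (Real.exp (-T)) (a ^ 2 / (ρ * n ^ 2)) -
    lamG (Real.exp (-T)) (a0 ^ 2 / (ρ * n0 ^ 2))| with hΔ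
  have hΔ0 : 0 ≤ Δ := abs_nonneg _
  set CT := T + (Real.log (U + 1) + 1) with hCT
  have hCT0 : 0 ≤ CT := by linarith
  have hq : 0 ≤ a0 / n0 * g := by positivity
  have h1' := abs_le.1 h1
  have h2' := abs_le.1 h2
  by_cases c1 : a0 / 2 < s
  · have h3 : a ≤ 3 * s := by linarith [h1'.2]
    calc Δ * a ≤ CT * (3 * s) := mul_le_mul hlt h3 ha hCT0
      _ ≤ (3 * CT + 12) * (s + a0 / n0 * g) := by nlinarith [mul_nonneg hCT0 hq]
  push Not at c1
  have h4 : a ≤ 3 / 2 * a0 := by linarith [h1'.2]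
  by_cases c2 : n0 / 2 < g
  · have h5 : a ≤ 3 * (a0 / n0 * g) := by
      have h6 : a0 / n0 * (n0 / 2) ≤ a0 / n0 * g :=
        mul_le_mul_of_nonneg_left c2.le (by positivity)
      have h7 : a0 / n0 * (n0 / 2) = a0 / 2 := by field_simp
      linarith
    calc Δ * a ≤ CT * (3 * (a0 / n0 * g)) := mul_le_mul hlt h5 ha hCT0
      _ ≤ (3 * CT + 12) * (s + a0 / n0 * g) := by nlinarith [mul_nonneg hCT0 hs]
  push Not at c2
  rcases eq_or_lt_of_le ha0 with h0 | h0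
  · -- `a0 = 0`: then `s = 0` and `a = 0`
    have h5 : a = 0 := by
      have : s ≤ 0 := by linarith
      linarith [h1'.2]
    rw [h5, mul_zero]
    positivity
  obtain ⟨hap, l1⟩ := abs_log_le h0 h1 c1
  obtain ⟨-, l2⟩ := abs_log_le hn0 h2 c2
  have h6 := lamG_log (Real.exp_pos (-T)).le
    (by positivity : 0 < a ^ 2 / (ρ * n ^ 2)) (by positivity : 0 < a0 ^ 2 / (ρ * n0 ^ 2))
  rw [← hΔ] at h6
  have h7 : a ^ 2 / (ρ * n ^ 2) / (a0 ^ 2 / (ρ * n0 ^ 2)) = (a / a0) ^ 2 / (n / n0) ^ 2 := by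
    field_simp
  have h8 : Real.log (a ^ 2 / (ρ * n ^ 2) / (a0 ^ 2 / (ρ * n0 ^ 2))) =
      2 * Real.log (a / a0) - 2 * Real.log (n / n0) := by
    rw [h7, Real.log_div (by positivity) (by positivity), Real.log_pow, Real.log_pow]
    norm_num
  have h9 : |Real.log (a ^ 2 / (ρ * n ^ 2) / (a0 ^ 2 / (ρ * n0 ^ 2)))| ≤
      4 * (s / a0) + 4 * (g / n0) := by
    rw [h8]
    have := abs_sub (2 * Real.log (a / a0)) (2 * Real.log (n / n0))
    rw [abs_mul, abs_mul, abs_of_nonneg (by norm_num : (0 : ℝ) ≤ 2)] at this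
    linarith
  have h10 : Δ ≤ 8 * (s / a0 + g / n0) := by linarith
  calc Δ * a ≤ 8 * (s / a0 + g / n0) * (3 / 2 * a0) := mul_le_mul h10 h4 ha (by positivity)
    _ = 12 * (s + a0 / n0 * g) := by
        field_simp
        ring
    _ ≤ (3 * CT + 12) * (s + a0 / n0 * g) := by nlinarith [mul_nonneg hCT0 (add_nonneg hs hq)]

end P365T2.H568.LB
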